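import Vale.Agent.P352G.Defs

/-!
# P352G, row JUG: the parts
-/

set_option linter.all false

noncomputable section

namespace Vale.Agent.P352G44

open Vale.Agent.P352 Vale.Agent.P352.GF Vale.Agent.P352.BW Vale.Agent.P352.H246 Vale.Agent.P352.H496
open Vale.Agent.P352.H15 Vale.Agent.P352X Vale.Agent.P352G
open Vale.Agent.P132 (ModData)
open UniformSpace (Completion)

/-- row SOFT: unitary groups that are scaled by the modular group -/
def SOFT (H : Type*) [NormedAddCommGroup H] [InnerProductSpace ℂ H] [CompleteSpace H] : Prop :=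
  ∀ (M : VonNeumannAlgebra H) (ξ : H) (E : ModData M ξ) (W : ℝ → H →L[ℂ] H) (κ s : ℝ),
    (κ = 2 * Real.pi ∨ κ = -(2 * Real.pi)) → (∀ t, W t ∈ unitary (H →L[ℂ] H)) →
    (∀ t u, W (t + u) = W t * W u) → (∀ z, Continuous fun t => W t z) → (∀ t, W t ξ = ξ) →
    (∀ t u, E.U t * W u = W (Real.exp (κ * t) * u) * E.U t) →
    Dense {z | ∃ x ∈ M, W s * x * W (-s) ∈ M ∧ x ξ = z} → ∀ z, E.J (W s z) = W (-s) (E.J z)

/-- row AND: the group `AN a` consists of products of boosts and null rotations -/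
def AND : Prop := ∀ a b L, IsNull a → IsNull b → GF.mdot a b = 1 → IsLor L → AN a L →
  ∃ t w, GF.mdot a w = 0 ∧ GF.mdot b w = 0 ∧
    L = fun m => sim 1 (T.bq a b t) 0 (H746.nrt a w m)

variable {D : Type*} [NormedAddCommGroup D] [InnerProductSpace ℂ D] [GrD D]

/-- `J U(g) = U(j g j) J` -/
def Jx {Q : Theory D} {M : VonNeumannAlgebra (Completion D)} (E : ModData M (om Q)) (s : ℝ)
    (L : Ix → V) (a : V) : Prop := ∀ z, E.J (Ug Q s L a z) = Ug Q s (jL L) (jr a) (E.J z)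

variable (D)

/-- row NAT: symmetries of the wedge -/
def NAT : Prop := ∀ (Q : Theory D) A (𝒜 : Set V → VonNeumannAlgebra (Completion D)),
  LNmZ Q A 𝒜 → ∀ E : ModData (𝒜 (Wdg va vb 0)) (om Q),
    (∀ z, E.J (Gm D z) = Gm D (E.J z)) ∧ (∀ s, 0 < s → Jx E s GF.one 0) ∧
    (∀ x, Jx E 1 GF.one (tv x)) ∧ (∀ t, Jx E 1 (T.bq va vb t) 0) ∧
    ∀ L, IsLor L → sim 1 L 0 va = va → sim 1 L 0 vb = vb → Jx E 1 L 0

/-- row TRA: null translations (from SOFT, BWG) -/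
def TRA : Prop := ∀ (Q : Theory D) A (𝒜 : Set V → VonNeumannAlgebra (Completion D)),
  LNmZ Q A 𝒜 → TfGenZ Q → ∀ (E : ModData (𝒜 (Wdg va vb 0)) (om Q)) (t : ℝ),
    Jx E 1 GF.one (t • va) ∧ Jx E 1 GF.one (t • vb)

/-- row NRT: null rotations (from SOFT, BWG) -/
def NRT : Prop := ∀ (Q : Theory D) A (𝒜 : Set V → VonNeumannAlgebra (Completion D)),
  LNmZ Q A 𝒜 → TfGenZ Q → ∀ (E : ModData (𝒜 (Wdg va vb 0)) (om Q)) (w : V),
    GF.mdot va w = 0 → GF.mdot vb w = 0 →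
    Jx E 1 (H746.nrt va w) 0 ∧ Jx E 1 (H746.nrt vb w) 0

end Vale.Agent.P352G44

end
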