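import Vale.Agent.P352G44.Plug
import Vale.Agent.P352G11.Rot
import Vale.Agent.P352G23.Tra
import Vale.Agent.P352G42.Row
import Vale.Agent.P352G6.Bwg
import Vale.Agent.P352G95.Genl
import Vale.Agent.P352G29.Nat

/-!
# P352G, row JUG
-/

namespace Vale.Agent.P352G44

open Vale.Agent.P352G

/-- row JUG -/
theorem jug_row (D : Type*) [NormedAddCommGroup D] [InnerProductSpace ℂ D] [GrD D] : JUG D :=
  jug P352G11.and_row (P352G29.nat D) (P352G23.tra (P352G42.soft _))
    (P352G11.nrt_row (P352G42.soft _) (bwg D)) P352G95.genl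

end Vale.Agent.P352G44
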