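import Vale.Agent.P352G44.Spec
import Vale.Agent.P352X.R.JC.A1
import Vale.Agent.P352.BW.T.S

/-!
# P352G, row JUG from its parts
-/

set_option linter.all false

noncomputable section

namespace Vale.Agent.P352G44

open Vale.Agent.P352 Vale.Agent.P352.GF Vale.Agent.P352.BW Vale.Agent.P352.H246 Vale.Agent.P352.H496
open Vale.Agent.P352.H15 Vale.Agent.P352.H755 Vale.Agent.P352X Vale.Agent.P352G
open Vale.Agent.P132 (ModData)
open UniformSpace (Completion)

theorem jL_mul (L L' : Ix → V) :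
    jL (fun m => sim 1 L 0 (L' m)) = fun m => sim 1 (jL L) 0 (jL L' m) := by
  funext m
  rw [JCa.jL_eq, JCa.jL_eq, simL_smul, ← JCa.sim_jL L 1 0 (L' m), JCa.jr_zero]

theorem an_jL {a : V} {L : Ix → V} (ha : jr a = -a) (h : AN a L) : AN a (jL L) := fun x hx => by
  have e : GF.mdot a (jr x) = 0 := by
    rw [← md_jr, jr_jr, ha, ← neg_one_smul ℝ a, md_smul_l, hx, mul_zero]
  obtain ⟨c, hc⟩ := h _ e
  have k := JCa.sim_jL L 1 0 (jr x)
  rw [jr_jr, JCa.jr_zero, hc] at k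
  refine ⟨-c, k.trans ?_⟩
  have k2 : jr (jr x + c • a) = jr (jr x) + c • jr a := by
    funext n
    simp only [jr_apply, Pi.add_apply, Pi.smul_apply, smul_eq_mul]
    ring
  rw [k2, jr_jr, ha, smul_neg, neg_smul]

theorem jr_a : jr va = -va := null_ext (by simp) (by simp) (by simp)

theorem jr_b : jr vb = -vb := null_ext (by simp) (by simp) (by simp)

theorem one_mulL (L : Ix → V) : (fun m => sim 1 GF.one 0 (L m)) = L := by
  funext m
  rw [sim_one', add_zero]

theorem an_bq (a b : V) (t : ℝ) : AN a (T.bq a b t) := fun x hx =>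
  ⟨_, by rw [T.bq, sim_bst, hx, mul_zero, zero_smul, add_zero]⟩

theorem an_nrt (a w : V) : AN a (H746.nrt a w) := fun x hx => ⟨-(2 * GF.mdot w x), by
  rw [H746.sim_nrt, hx]
  simp [sub_eq_add_neg]⟩

variable {D : Type*} [NormedAddCommGroup D] [InnerProductSpace ℂ D] [GrD D]
  {Q : Theory D} {A : (V → V) → D → D} {M : VonNeumannAlgebra (Completion D)}
  {E : ModData M (om Q)} {s s' : ℝ} {L L' : Ix → V} {a a' : V}

theorem ext_coe {X Y : Completion D →L[ℂ] Completion D} (h : ∀ v : D, X v = Y v)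
    (z : Completion D) : X z = Y z :=
  congrFun (Completion.denseRange_coe.equalizer X.continuous Y.continuous (funext h)) z

theorem umul (R : RepZ Q A) (hs : 0 < s) (hs' : 0 < s') (hL : IsLor L) (hL' : IsLor L')
    (ok : OkL L L') (z : Completion D) : Ug Q s L a (Ug Q s' L' a' z) =
      Ug Q (s * s') (fun m => sim 1 L 0 (L' m)) (sim s L a a') z :=
  ext_coe (X := Ug Q s L a * Ug Q s' L' a') (fun v => by
    rw [ContinuousLinearMap.mul_apply, Grp.coe hs' hL', Grp.coe hs hL,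
      Grp.coe (mul_pos hs hs') (ue_lor hL hL'), R.mul _ _ _ _ _ _ _ hs hs' hL hL' ok]) z

/-- the powers of the grading -/
abbrev gp (D : Type*) [NormedAddCommGroup D] [InnerProductSpace ℂ D] [GrD D] (e : Bool) :
    Completion D →L[ℂ] Completion D := cond e (Gm D) 1

theorem umul' (R : RepZ Q A) (hs : 0 < s) (hs' : 0 < s') (hL : IsLor L) (hL' : IsLor L')
    (a a' : V) : ∃ e, ∀ z, Ug Q s L a (Ug Q s' L' a' z) =
      gp D e (Ug Q (s * s') (fun m => sim 1 L 0 (L' m)) (sim s L a a') z) := by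
  rcases R.gr.mul s L a s' L' a' hs hs' hL hL' with h | ⟨-, -, h⟩
  · exact ⟨false, ext_coe (X := Ug Q s L a * Ug Q s' L' a') fun v => by
      rw [ContinuousLinearMap.mul_apply, Grp.coe hs' hL', Grp.coe hs hL, h]
      exact (Grp.coe (mul_pos hs hs') (ue_lor hL hL') _ _).symm⟩
  · exact ⟨true, ext_coe (X := Ug Q s L a * Ug Q s' L' a') (Y := Gm D * _) fun v => by
      rw [ContinuousLinearMap.mul_apply, ContinuousLinearMap.mul_apply, Grp.coe hs' hL',
        Grp.coe hs hL, h, Grp.coe (mul_pos hs hs') (ue_lor hL hL'), R.ext]⟩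

theorem gg (R : RepZ Q A) (z : Completion D) : Gm D (Gm D z) = z :=
  ext_coe (X := Gm D * Gm D) (Y := 1) (fun v => by
    rw [ContinuousLinearMap.mul_apply, R.ext, R.ext]
    exact congrArg _ (R.gr.inv v)) z

theorem gu (R : RepZ Q A) (hs : 0 < s) (hL : IsLor L) (z : Completion D) :
    Ug Q s L a (Gm D z) = Gm D (Ug Q s L a z) :=
  ext_coe (X := Ug Q s L a * Gm D) (Y := Gm D * Ug Q s L a) (fun v => by
    rw [ContinuousLinearMap.mul_apply, ContinuousLinearMap.mul_apply, R.ext, Grp.coe hs hL,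
      Grp.coe hs hL, R.ext]
    exact congrArg _ (R.gr.GU s L a v hs hL)) z

theorem Jx.mul (R : RepZ Q A) (hs : 0 < s) (hs' : 0 < s') (hL : IsLor L) (hL' : IsLor L')
    (ok : OkL L L') (ok' : OkL (jL L) (jL L')) (h : Jx E s L a) (h' : Jx E s' L' a') :
    Jx E (s * s') (fun m => sim 1 L 0 (L' m)) (sim s L a a') := fun z => by
  rw [← umul R hs hs' hL hL' ok, h, h', umul R hs hs' (JCa.isLor_jL hL) (JCa.isLor_jL hL') ok',
    jL_mul, JCa.sim_jL]

variable (E) in
/-- `J U(g) = U(j g j) J` up to the grading -/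
def Jy (s : ℝ) (L : Ix → V) (a : V) : Prop :=
  ∃ e, ∀ z, E.J (Ug Q s L a z) = gp D e (Ug Q s (jL L) (jr a) (E.J z))

theorem Jx.y (h : Jx E s L a) : Jy E s L a := ⟨false, h⟩

theorem Jy.mul (R : RepZ Q A) (g : ∀ z, E.J (Gm D z) = Gm D (E.J z)) (hs : 0 < s) (hs' : 0 < s')
    (hL : IsLor L) (hL' : IsLor L') (h : Jy E s L a) (h' : Jy E s' L' a') :
    Jy E (s * s') (fun m => sim 1 L 0 (L' m)) (sim s L a a') := by
  obtain ⟨e1, h1⟩ := h
  obtain ⟨e2, h2⟩ := h'
  obtain ⟨e3, h3⟩ := umul' R hs hs' hL hL' a a'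
  obtain ⟨e4, h4⟩ := umul' R hs hs' (JCa.isLor_jL hL) (JCa.isLor_jL hL') (jr a) (jr a')
  refine ⟨xor (xor e1 e2) (xor e3 e4), fun z => ?_⟩
  have k := h1 (Ug Q s' L' a' z)
  have k4 := h4 (E.J z)
  have u := gu R hs (JCa.isLor_jL hL) (a := jr a) (Ug Q s' (jL L') (jr a') (E.J z))
  rw [h3, h2] at k
  rw [jL_mul, ← JCa.sim_jL]
  generalize Ug Q (s * s') (fun m => sim 1 L 0 (L' m)) (sim s L a a') z = x at k ⊢
  generalize Ug Q (s * s') _ _ (E.J z) = y at k4 ⊢
  have k5 : E.J x = gp D e3 (E.J (gp D e3 x)) := by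
    cases e3
    · rfl
    · exact (gg R _).symm.trans (congrArg _ (g x).symm)
  rw [k5, k]
  cases e1 <;> cases e2 <;> cases e3 <;> cases e4 <;>
    simp only [gp, cond_true, cond_false, ContinuousLinearMap.one_apply, u, k4, gg R, Bool.xor_true,
      Bool.xor_false, Bool.not_true, Bool.not_false] at k4 ⊢

theorem full (R : RepZ Q A) {P : ℝ → (Ix → V) → V → Prop}
    (m : ∀ s a s' L' a', 0 < s → 0 < s' → IsLor L' → P s GF.one a → P s' L' a' →
      P (s * s') (fun m => sim 1 GF.one 0 (L' m)) (sim s GF.one a a'))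
    (hs : 0 < s) (hL : IsLor L) (h1 : P 1 GF.one a) (h2 : P s GF.one 0) (h3 : P 1 L 0) :
    P s L a := by
  have k := m _ _ _ _ _ one_pos hs H496.isLor_one h1 h2
  rw [one_mul, one_mulL, Grp.sim_zero] at k
  have k' := m _ _ _ _ _ hs one_pos hL k h3
  rwa [mul_one, one_mulL, Grp.sim_zero] at k'

/-- row JUG -/
theorem jug (an : AND) (nat : NAT D) (tra : TRA D) (nrt : NRT D) (gen : GENL) : JUG D := by
  intro Q A 𝒜 h hG E
  have R := h.toRepZ
  obtain ⟨n1, n2, n3, n4, n5⟩ := nat Q A 𝒜 h E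
  have o := H496.isLor_one
  have m : ∀ s a s' L' a', 0 < s → 0 < s' → IsLor L' → Jx E s GF.one a → Jx E s' L' a' →
      Jx E (s * s') (fun m => sim 1 GF.one 0 (L' m)) (sim s GF.one a a') :=
    fun s a s' L' a' hs hs' hL => Jx.mul R hs hs' o hL (.inl rfl) (.inl JCa.jL_one)
  have t : ∀ y, Jx E 1 GF.one y := fun y => by
    have k := m _ _ _ _ _ one_pos one_pos o (tra Q A 𝒜 h hG E (al y)).1
      (tra Q A 𝒜 h hG E (be y)).2
    rw [one_mul, one_mulL, sim_one'] at k
    have k' := m _ _ _ _ _ one_pos one_pos o (n3 (tx y)) k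
    rwa [one_mul, one_mulL, sim_one', show be y • vb + al y • va + tv (tx y) = y from
      null_ext (by simp) (by simp) (by simp)] at k'
  have la : ∀ L, IsLor L → AN va L → Jx E 1 L 0 := fun L hL hA => by
    obtain ⟨τ, w, h1, h2, rfl⟩ := an va vb L null_va null_vb md_ab hL hA
    have k := Jx.mul R one_pos one_pos (T.s_lor null_va null_vb md_ab τ)
      (H746.isLor_nrt null_va h1) (.inr (.inr ⟨va, null_va, an_bq _ _ _, an_nrt _ _⟩))
      (.inr (.inr ⟨va, null_va, an_jL jr_a (an_bq _ _ _), an_jL jr_a (an_nrt _ _)⟩)) (n4 τ)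
      (nrt Q A 𝒜 h hG E w h1 h2).1
    rwa [one_mul, Grp.sim_zero] at k
  have lb : ∀ L, IsLor L → AN vb L → Jx E 1 L 0 := fun L hL hA => by
    have hba : GF.mdot vb va = 1 := by rw [md_comm]; exact md_ab
    obtain ⟨τ, w, h1, h2, rfl⟩ := an vb va L null_vb null_va hba hL hA
    have k := Jx.mul R one_pos one_pos (T.s_lor null_vb null_va hba τ)
      (H746.isLor_nrt null_vb h1) (.inr (.inr ⟨vb, null_vb, an_bq _ _ _, an_nrt _ _⟩))
      (.inr (.inr ⟨vb, null_vb, an_jL jr_b (an_bq _ _ _), an_jL jr_b (an_nrt _ _)⟩))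
      (by rw [T.s_bq_swap va vb]; exact n4 _) (nrt Q A 𝒜 h hG E w h2 h1).2
    rwa [one_mul, Grp.sim_zero] at k
  refine ⟨n1, fun s L a z hs hL hA => full R m hs hL (t a) (n2 s hs) ?_ z, fun s L a hs hL => ?_⟩
  · rcases hA with rfl | hA | hA
    exacts [t 0, la L hL hA, lb L hL hA]
  · refine full (P := Jy E) R (fun s a s' L' a' hs hs' hL => Jy.mul R n1 hs hs' o hL) hs hL (t a).y
      (n2 s hs).y (gen (fun L => Jy E 1 L 0) (fun L hL hA => (la L hL hA).y)
        (fun L hL hA => (lb L hL hA).y) (fun L hL h1 h2 => (n5 L hL h1 h2).y)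
        (fun L L' hL hL' h1 h2 => ?_) L hL)
    have k := Jy.mul R n1 one_pos one_pos hL hL' h1 h2
    rwa [one_mul, Grp.sim_zero] at k

end Vale.Agent.P352G44

end
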